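import Vale.Agent.P167.N.Kit
import Vale.Agent.P167.N.H167.Q.Mix
import Vale.Agent.P167.QM.Blk

/-! generated from Vale.Agent.P167.QM.Blk (q < 1 port) -/

set_option autoImplicit false

namespace Vale.Agent.P167.N.QM

open Vale.Agent.P167.QM

open Finset Vale.Agent.P167.FK Vale.Agent.P167.FKA

open Vale.Agent.P167.H259 (f_markov f_fkg f_comp f_comp2)

variable {Q : ℝ}

theorem two_site (hQ : Kit Q) {α C : ℝ} (hα : 0 < α) (hC : 0 < C) (h : ArmDec Q α C)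
    {D : Finset (ℤ × ℤ)} {η : Cfg} {D0 : Finset (ℤ × ℤ)} {η0 : Cfg} {h0 k ρ x x' : ℤ}
    (hη : Good η) (hη0 : Good η0) (hρ : 1 ≤ ρ) {N N' G : Cfg → ℝ} {B n' : ℝ} (hB : 0 ≤ B)
    (hD : Bq (x, h0) k ⊆ D) (hD' : Bq (x', h0) (2 * ρ) ⊆ D) (hD0 : Bq (x, h0) k ⊆ D0)
    (hd : 4 * ρ ≤ |x - x'|) (hdk : |x - x'| ≤ 2 * k)
    (hl : Loc (Bq (x, h0) ρ) N) (hl' : Loc (Bq (x', h0) ρ) N')
    (hN : ∀ ξ, Good ξ → Ex Q (Bq (x, h0) (2 * ρ)) ξ (fun ω => N ω ^ 2) ≤ B ^ 2)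
    (hN' : ∀ ξ, Good ξ → Ex Q (Bq (x', h0) (2 * ρ)) ξ (fun ω => N' ω ^ 2) ≤ B ^ 2)
    (hn' : |n'| ≤ B) (hG0 : ∀ ω, 0 ≤ G ω) (hG : Ind (Bq (x, h0) k) G)
    (hG' : Ind (Bq (x', h0) (2 * ρ)) G) :
    |Ex Q D η (fun ω => G ω * ((N ω - Ex Q D0 η0 N) * (N' ω - n')))| ≤
      8 * C * (8 * (ρ : ℝ) / |x - x'|) ^ α * B ^ 2 * Ex Q D η G := by
  have hQ_pos := hQ.pos
  have hQ0 : 0 < Q := by linarith
  set d : ℤ := |x - x'| with hdd
  set r : ℤ := d / 2 with hr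
  have hr1 : 2 * ρ ≤ r := by omega
  have hr2 : r ≤ k := by omega
  have hr3 : r + ρ ≤ d := by omega
  have hr4 : d ≤ 4 * r := by omega
  have hM : ∀ ξ, Good ξ → Ex Q (Bq (x, h0) (2 * ρ)) ξ (fun ω => |N ω|) ≤ B :=
    fun ξ hξ => ex_abs1 hQ0 hB (hN ξ hξ)
  have hl2 : Loc (Bq (x, h0) (2 * ρ)) N := fun ω ω' h => hl ω ω' fun v hv =>
    h v (H167.Q.bq_mono (by omega) hv)
  have hDr : Bq (x, h0) r ⊆ D := (H167.Q.bq_mono hr2).trans hD
  have hD0r : Bq (x, h0) r ⊆ D0 := (H167.Q.bq_mono hr2).trans hD0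
  have hl3 : Loc (Bq (x', h0) ρ) fun ω => N' ω - n' := fun ω ω' h => by
    show N' ω - n' = N' ω' - n'
    rw [hl' ω ω' h]
  have hI : Ind (Bq (x, h0) r) fun ω => G ω * (N' ω - n') :=
    (hG.mono (H167.Q.bq_mono hr2)).mul (hl3.ind (bq_disj hr3))
  have h1 := H167.Q.mix_mul hQ h (by omega : (1 : ℤ) ≤ 2 * ρ) hr1 hl2 hM hη hDr hI
  have h2 := H167.Q.mix_mul hQ h (by omega : (1 : ℤ) ≤ 2 * ρ) hr1 hl2 hM hη0 hD0r
    (G := fun _ => 1) fun _ _ _ => rfl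
  simp only [one_mul, abs_one] at h2
  rw [Ex_const hQ0, one_mul, one_mul] at h2
  set e := Ex Q (Bq (x, h0) r) eta1 N with he
  set n := Ex Q D0 η0 N with hn
  set c := 2 * B * (C * (((2 * ρ : ℤ) : ℝ) / r) ^ α) with hc
  have h3 : Ex Q D η (fun ω => |G ω * (N' ω - n')|) ≤ 2 * B * Ex Q D η G := by
    refine le_trans (le_of_eq (Ex_congr fun S _ => ?_)) (one_site1 hQ0 hη hD' hB hn' hN' hG0 hG')
    rw [abs_mul, abs_of_nonneg (hG0 _)]
  have hE0 : 0 ≤ Ex Q D η G := Ex_nonneg hQ0 fun _ _ => hG0 _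
  have hρ' : (1 : ℝ) ≤ ρ := by exact_mod_cast hρ
  have hr1' : 2 * (ρ : ℝ) ≤ r := by exact_mod_cast hr1
  have hr4' : (d : ℝ) ≤ 4 * r := by exact_mod_cast hr4
  have hd' : 4 * (ρ : ℝ) ≤ d := by exact_mod_cast hd
  have hc0 : 0 ≤ c := by
    have : 0 ≤ ((2 * ρ : ℤ) : ℝ) / r := div_nonneg (by push_cast; linarith) (by linarith)
    positivity
  have e1 : Ex Q D η (fun ω => G ω * ((N ω - n) * (N' ω - n'))) =
      (Ex Q D η (fun ω => G ω * (N' ω - n') * N ω) - Ex Q D η (fun ω => G ω * (N' ω - n')) * e) +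
        Ex Q D η (fun ω => G ω * (N' ω - n')) * (e - n) := by
    have e2 : Ex Q D η (fun ω => G ω * ((N ω - n) * (N' ω - n'))) =
        Ex Q D η (fun ω => G ω * (N' ω - n') * N ω) - n * Ex Q D η (fun ω => G ω * (N' ω - n')) := by
      rw [← Ex_mul_left, ← Ex_sub]
      exact Ex_congr fun S _ => by ring
    rw [e2]
    ring
  rw [e1]
  refine (abs_add_le _ _).trans ?_
  rw [abs_mul]
  have h4 : |e - n| ≤ c := by rw [abs_sub_comm]; exact h2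
  have h5 : |Ex Q D η (fun ω => G ω * (N' ω - n'))| ≤ 2 * B * Ex Q D η G :=
    (abs_Ex_le hQ0 _).trans h3
  have h6 : |Ex Q D η (fun ω => G ω * (N' ω - n'))| * |e - n| ≤ 2 * B * Ex Q D η G * c :=
    mul_le_mul h5 h4 (abs_nonneg _) (mul_nonneg (by linarith) hE0)
  have h7 : Ex Q D η (fun ω => |G ω * (N' ω - n')|) * c ≤ 2 * B * Ex Q D η G * c :=
    mul_le_mul_of_nonneg_right h3 hc0
  have h8 : c ≤ 2 * B * (C * (8 * (ρ : ℝ) / d) ^ α) := by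
    refine mul_le_mul_of_nonneg_left (mul_le_mul_of_nonneg_left ?_ hC.le) (by linarith)
    refine Real.rpow_le_rpow (div_nonneg (by push_cast; linarith) (by linarith)) ?_ hα.le
    push_cast
    rw [div_le_div_iff₀ (by linarith) (by linarith)]
    nlinarith
  calc _ ≤ 2 * B * Ex Q D η G * c + 2 * B * Ex Q D η G * c := by linarith
    _ = 4 * B * Ex Q D η G * c := by ring
    _ ≤ 4 * B * Ex Q D η G * (2 * B * (C * (8 * (ρ : ℝ) / d) ^ α)) :=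
      mul_le_mul_of_nonneg_left h8 (mul_nonneg (by linarith) hE0)
    _ = 8 * C * (8 * (ρ : ℝ) / d) ^ α * B ^ 2 * Ex Q D η G := by ring
    _ = _ := by rw [hdd, Int.cast_abs, Int.cast_sub]

theorem pair_le (hQ : Kit Q) {α C : ℝ} (hα : 0 < α) (hC : 0 < C) (h : ArmDec Q α C)
    {D : Finset (ℤ × ℤ)} {η : Cfg} {D0 : Finset (ℤ × ℤ)} {η0 : Cfg} {h0 k ρ x x' : ℤ}
    (hη : Good η) (hη0 : Good η0) (hρ : 1 ≤ ρ) {N N' G : Cfg → ℝ} {B m t : ℝ} (hB : 0 ≤ B)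
    (hm0 : 0 < m) (ht0 : 0 < t) (hmt : (ρ : ℝ) = m * t)
    (hD : Bq (x, h0) k ⊆ D) (hD2 : Bq (x, h0) (2 * ρ) ⊆ D) (hD' : Bq (x', h0) (2 * ρ) ⊆ D)
    (hD0 : Bq (x, h0) k ⊆ D0) (hdk : |x - x'| ≤ 2 * k)
    (hl : Loc (Bq (x, h0) ρ) N) (hl' : Loc (Bq (x', h0) ρ) N')
    (hN : ∀ ξ, Good ξ → Ex Q (Bq (x, h0) (2 * ρ)) ξ (fun ω => N ω ^ 2) ≤ B ^ 2)
    (hN' : ∀ ξ, Good ξ → Ex Q (Bq (x', h0) (2 * ρ)) ξ (fun ω => N' ω ^ 2) ≤ B ^ 2)
    (hn : |Ex Q D0 η0 N| ≤ B) (hn' : |Ex Q D0 η0 N'| ≤ B) (hG0 : ∀ ω, 0 ≤ G ω)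
    (hG : Ind (Bq (x, h0) k) G) (hG2 : Ind (Bq (x, h0) (2 * ρ)) G)
    (hG' : Ind (Bq (x', h0) (2 * ρ)) G) :
    |Ex Q D η (fun ω => G ω * ((N ω - Ex Q D0 η0 N) * (N' ω - Ex Q D0 η0 N')))| ≤
      (if ((|x - x'| : ℤ) : ℝ) ≤ m then 4 + 8 * C * 2 ^ α else
        (4 * 4 ^ α + 8 * C * 8 ^ α) * t ^ α) * (B ^ 2 * Ex Q D η G) := by
  have hQ_pos := hQ.pos
  have hQ0 : 0 < Q := by linarith
  have p2 : (0 : ℝ) < 2 ^ α := Real.rpow_pos_of_pos (by norm_num) _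
  have p4 : (0 : ℝ) < 4 ^ α := Real.rpow_pos_of_pos (by norm_num) _
  have p8 : (0 : ℝ) < 8 ^ α := Real.rpow_pos_of_pos (by norm_num) _
  have pt : 0 < t ^ α := Real.rpow_pos_of_pos ht0 _
  have hE0 : 0 ≤ Ex Q D η G := Ex_nonneg hQ0 fun _ _ => hG0 _
  have hBE : 0 ≤ B ^ 2 * Ex Q D η G := mul_nonneg (sq_nonneg _) hE0
  have hρ' : (1 : ℝ) ≤ ρ := by exact_mod_cast hρ
  by_cases hd : |x - x'| < 4 * ρ
  · have h3 := near_pair hQ0 hη hD2 hD' hN hN' hn hn' hG0 hG2 hG'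
    refine h3.trans (mul_le_mul_of_nonneg_right ?_ hBE)
    split_ifs with hif
    · have : 0 ≤ 8 * C * 2 ^ α := (mul_pos (by linarith) p2).le
      linarith
    · push Not at hif
      have h9 : ((|x - x'| : ℤ) : ℝ) < 4 * ρ := by exact_mod_cast hd
      have h10 : m < 4 * ρ := hif.trans h9
      have h11 : 1 ≤ 4 * t := by
        rw [hmt] at h10
        have h12 : m * 1 < m * (4 * t) := by linarith
        exact (lt_of_mul_lt_mul_left h12 hm0.le).le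
      have h12 : (1 : ℝ) ≤ 4 ^ α * t ^ α := by
        rw [← Real.mul_rpow (by norm_num) ht0.le]
        exact Real.one_le_rpow h11 hα.le
      have h13 : 0 ≤ 8 * C * 8 ^ α * t ^ α := (mul_pos (mul_pos (by linarith) p8) pt).le
      rw [add_mul]
      linarith
  · push Not at hd
    have h3 := two_site hQ hα hC h hη hη0 hρ hB hD hD' hD0 hd hdk hl hl' hN hN' hn' hG0 hG hG'
    rw [Int.cast_abs, Int.cast_sub] at h3
    refine h3.trans ?_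
    rw [mul_assoc (8 * C * _)]
    refine mul_le_mul_of_nonneg_right ?_ hBE
    have hd' : 4 * (ρ : ℝ) ≤ |(x : ℝ) - x'| := by
      have : ((4 * ρ : ℤ) : ℝ) ≤ ((|x - x'| : ℤ) : ℝ) := by exact_mod_cast hd
      rw [Int.cast_abs, Int.cast_sub] at this
      push_cast at this
      exact this
    have hd0 : 0 < |(x : ℝ) - x'| := by linarith
    split_ifs with hif
    · have h4 : (8 * (ρ : ℝ) / |(x : ℝ) - x'|) ^ α ≤ 2 ^ α := by
        refine Real.rpow_le_rpow (div_nonneg (by linarith) hd0.le) ?_ hα.le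
        rw [div_le_iff₀ hd0]
        linarith
      have h5 := mul_le_mul_of_nonneg_left h4 (show (0 : ℝ) ≤ 8 * C by linarith)
      linarith
    · push Not at hif
      rw [Int.cast_abs, Int.cast_sub] at hif
      have h4 : (8 * (ρ : ℝ) / |(x : ℝ) - x'|) ^ α ≤ 8 ^ α * t ^ α := by
        rw [← Real.mul_rpow (by norm_num) ht0.le]
        refine Real.rpow_le_rpow (div_nonneg (by linarith) hd0.le) ?_ hα.le
        rw [div_le_iff₀ hd0, hmt]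
        have := mul_le_mul_of_nonneg_right hif.le (show (0 : ℝ) ≤ 8 * t by linarith)
        linarith
      have h5 := mul_le_mul_of_nonneg_left h4 (show (0 : ℝ) ≤ 8 * C by linarith)
      have h6 : 0 ≤ 4 * 4 ^ α * t ^ α := (mul_pos (by linarith) pt).le
      rw [add_mul]
      linarith

/-- **Law of large numbers for local functions along a segment.** -/
theorem block_L1 (hQ : Kit Q) {α C : ℝ} (hα : 0 < α) (hC : 0 < C) (h : ArmDec Q α C) :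
    ∃ γ C' : ℝ, 0 < γ ∧ 0 < C' ∧ ∀ (D : Finset (ℤ × ℤ)) (η : Cfg) (D0 : Finset (ℤ × ℤ)) (η0 : Cfg)
    (h0 : ℤ) (I : Finset ℤ) (k ρ : ℤ) (N : ℤ → Cfg → ℝ) (φ : ℤ → ℝ) (B : ℝ) (G : Cfg → ℝ),
    Good η → Good η0 → 0 ≤ B → 1 ≤ ρ → 4 * ρ ≤ k →
    (∀ x ∈ I, Bq (x, h0) k ⊆ D ∧ Bq (x, h0) k ⊆ D0) →
    (∀ x ∈ I, ∀ x' ∈ I, |x - x'| ≤ 2 * k) → (∀ x ∈ I, Loc (Bq (x, h0) ρ) (N x)) →
    (∀ x ∈ I, ∀ ξ, Good ξ → Ex Q (Bq (x, h0) (2 * ρ)) ξ (fun ω => N x ω ^ 2) ≤ B ^ 2) →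
    (∀ x ∈ I, |φ x| ≤ 1) → (∀ ω, 0 ≤ G ω) → Ind (I.biUnion fun x => Bq (x, h0) k) G →
    Ex Q D η (fun ω => G ω * |∑ x ∈ I, φ x * (N x ω - Ex Q D0 η0 (N x))|) ≤
      C' * k * ((ρ : ℝ) / k) ^ γ * B * Ex Q D η G := by
  have hQ_pos := hQ.pos
  have hQ0 : 0 < Q := by linarith
  set K1 : ℝ := 4 + 8 * C * 2 ^ α with hK1
  set K2 : ℝ := 4 * 4 ^ α + 8 * C * 8 ^ α with hK2
  have p2 : (0 : ℝ) < 2 ^ α := Real.rpow_pos_of_pos (by norm_num) _
  have p4 : (0 : ℝ) < 4 ^ α := Real.rpow_pos_of_pos (by norm_num) _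
  have p8 : (0 : ℝ) < 8 ^ α := Real.rpow_pos_of_pos (by norm_num) _
  have hK1' : 0 < K1 := by positivity
  have hK2' : 0 < K2 := by positivity
  set γ : ℝ := min 1 α / 4 with hγ
  have hγ0 : 0 < γ := div_pos (lt_min one_pos hα) (by norm_num)
  set A : ℝ := 5 * (3 * K1 + 5 * K2) with hA
  have hA0 : 0 < A := by positivity
  refine ⟨γ, Real.sqrt A, hγ0, Real.sqrt_pos.2 hA0, ?_⟩
  intro D η D0 η0 h0 I k ρ N φ B G hη hη0 hB hρ hρk hD hdk hloc hN hφ hG0 hG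
  have hρ' : (1 : ℝ) ≤ ρ := by exact_mod_cast hρ
  have hk' : 4 * (ρ : ℝ) ≤ k := by exact_mod_cast hρk
  have hk0 : (0 : ℝ) < k := by linarith
  set τ : ℝ := (ρ : ℝ) / k with hτ
  have hτ0 : 0 < τ := div_pos (by linarith) hk0
  have hτ1 : τ ≤ 1 := by rw [hτ, div_le_one hk0]; linarith
  set u : ℝ := τ ^ γ with hu
  have hu0 : 0 < u := Real.rpow_pos_of_pos hτ0 _
  set t : ℝ := τ ^ (1 / 2 : ℝ) with ht
  have ht0 : 0 < t := Real.rpow_pos_of_pos hτ0 _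
  have htt : t * t = τ := by
    rw [ht, ← Real.rpow_add hτ0]; norm_num
  have hu2 : u ^ 2 = τ ^ (2 * γ) := by
    rw [hu, mul_comm, Real.rpow_mul hτ0.le]; norm_num
  have htu : t ≤ u ^ 2 := by
    rw [hu2, ht]
    refine Real.rpow_le_rpow_of_exponent_ge hτ0 hτ1 ?_
    have := min_le_left 1 α
    rw [hγ]; linarith
  have htα : t ^ α ≤ u ^ 2 := by
    rw [hu2, ht, ← Real.rpow_mul hτ0.le]
    refine Real.rpow_le_rpow_of_exponent_ge hτ0 hτ1 ?_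
    have := min_le_right 1 α
    rw [hγ]; linarith
  set m : ℝ := k * t with hm
  have hmt : (ρ : ℝ) = m * t := by
    rw [hm, mul_assoc, htt, hτ]
    field_simp
  have hmm : m * m = ρ * k := by
    have : m * m = k * k * (t * t) := by rw [hm]; ring
    rw [this, htt, hτ]
    field_simp
  have hm1 : 1 ≤ m := by
    have hm0 : 0 < m := mul_pos hk0 ht0
    nlinarith
  have hE0 : 0 ≤ Ex Q D η G := Ex_nonneg hQ0 fun _ _ => hG0 _
  -- the data for a single site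
  have hsub : ∀ x ∈ I, Bq (x, h0) k ⊆ I.biUnion fun x => Bq (x, h0) k := fun x hx =>
    Finset.subset_biUnion_of_mem (fun x => Bq (x, h0) k) hx
  have hGk : ∀ x ∈ I, Ind (Bq (x, h0) k) G := fun x hx => hG.mono (hsub x hx)
  have hG2 : ∀ x ∈ I, Ind (Bq (x, h0) (2 * ρ)) G := fun x hx =>
    (hGk x hx).mono (H167.Q.bq_mono (by omega))
  have hD2 : ∀ x ∈ I, Bq (x, h0) (2 * ρ) ⊆ D := fun x hx =>
    (H167.Q.bq_mono (by omega)).trans (hD x hx).1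
  have hn : ∀ x ∈ I, |Ex Q D0 η0 (N x)| ≤ B := by
    intro x hx
    refine (abs_Ex_le hQ0 _).trans ?_
    have h1 := markov_le (G := fun _ => 1) (F := fun ω => |N x ω|) f_markov f_good hQ0
      ((H167.Q.bq_mono (by omega : 2 * ρ ≤ k)).trans (hD x hx).2) hη0 (fun _ _ _ => rfl)
      (fun _ => zero_le_one) fun ξ hξ => ex_abs1 hQ0 hB (hN x hx ξ hξ)
    simp only [one_mul] at h1
    rwa [Ex_const hQ0, mul_one] at h1
  -- the pairs
  have pair : ∀ x ∈ I, ∀ x' ∈ I, Ex Q D η (fun ω => G ω * ((φ x * (N x ω - Ex Q D0 η0 (N x))) *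
      (φ x' * (N x' ω - Ex Q D0 η0 (N x'))))) ≤
      (if ((|x - x'| : ℤ) : ℝ) ≤ m then K1 else K2 * t ^ α) * (B ^ 2 * Ex Q D η G) := by
    intro x hx x' hx'
    have hφφ : |φ x * φ x'| ≤ 1 := by
      rw [abs_mul]
      exact mul_le_one₀ (hφ x hx) (abs_nonneg _) (hφ x' hx')
    have e1 : Ex Q D η (fun ω => G ω * ((φ x * (N x ω - Ex Q D0 η0 (N x))) *
        (φ x' * (N x' ω - Ex Q D0 η0 (N x'))))) = φ x * φ x' *
        Ex Q D η (fun ω => G ω * ((N x ω - Ex Q D0 η0 (N x)) * (N x' ω - Ex Q D0 η0 (N x')))) := by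
      rw [← Ex_mul_left]
      exact Ex_congr fun S _ => by ring
    rw [e1]
    refine (le_abs_self _).trans ?_
    rw [abs_mul]
    refine (mul_le_of_le_one_left (abs_nonneg _) hφφ).trans ?_
    exact pair_le hQ hα hC h hη hη0 hρ hB (by linarith) ht0 hmt (hD x hx).1 (hD2 x hx)
      (hD2 x' hx') (hD x hx).2 (hdk x hx x' hx') (hloc x hx) (hloc x' hx') (hN x hx) (hN x' hx')
      (hn x hx) (hn x' hx') hG0 (hGk x hx) (hG2 x hx) (hG2 x' hx')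
  -- the sum
  have hsum : Ex Q D η (fun ω => G ω * (∑ x ∈ I, φ x * (N x ω - Ex Q D0 η0 (N x))) ^ 2) ≤
      A * (k * u) ^ 2 * (B ^ 2 * Ex Q D η G) := by
    have e1 : Ex Q D η (fun ω => G ω * (∑ x ∈ I, φ x * (N x ω - Ex Q D0 η0 (N x))) ^ 2) =
        ∑ x ∈ I, ∑ x' ∈ I, Ex Q D η (fun ω => G ω * ((φ x * (N x ω - Ex Q D0 η0 (N x))) *
          (φ x' * (N x' ω - Ex Q D0 η0 (N x'))))) := by
      have e2 : ∀ x, ∑ x' ∈ I, Ex Q D η (fun ω => G ω * ((φ x * (N x ω - Ex Q D0 η0 (N x))) *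
          (φ x' * (N x' ω - Ex Q D0 η0 (N x'))))) =
          Ex Q D η (fun ω => ∑ x' ∈ I, G ω * ((φ x * (N x ω - Ex Q D0 η0 (N x))) *
          (φ x' * (N x' ω - Ex Q D0 η0 (N x'))))) := fun x => (Ex_sum _ _).symm
      simp only [e2]
      rw [← Ex_sum]
      refine Ex_congr fun S _ => ?_
      rw [sq, Finset.sum_mul_sum, Finset.mul_sum]
      exact Finset.sum_congr rfl fun x _ => by rw [Finset.mul_sum]
    rw [e1]
    have hI := card_I (by omega : (1 : ℤ) ≤ k) hdk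
    have hBE : 0 ≤ B ^ 2 * Ex Q D η G := mul_nonneg (sq_nonneg _) hE0
    have row : ∀ x ∈ I, ∑ x' ∈ I, Ex Q D η (fun ω => G ω * ((φ x * (N x ω - Ex Q D0 η0 (N x))) *
        (φ x' * (N x' ω - Ex Q D0 η0 (N x'))))) ≤
        (3 * m * K1 + 5 * k * (K2 * t ^ α)) * (B ^ 2 * Ex Q D η G) := by
      intro x hx
      refine (Finset.sum_le_sum fun x' hx' => pair x hx x' hx').trans ?_
      rw [← Finset.sum_mul]
      refine mul_le_mul_of_nonneg_right ?_ hBE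
      have h3 : ∀ x' ∈ I, (if ((|x - x'| : ℤ) : ℝ) ≤ m then K1 else K2 * t ^ α) ≤
          (if ((|x - x'| : ℤ) : ℝ) ≤ m then K1 else 0) + K2 * t ^ α := by
        intro x' _
        have : 0 ≤ K2 * t ^ α := by positivity
        split_ifs <;> linarith
      refine (Finset.sum_le_sum h3).trans ?_
      rw [Finset.sum_add_distrib, ← Finset.sum_filter, Finset.sum_const, Finset.sum_const,
        nsmul_eq_mul, nsmul_eq_mul]
      have h4 := card_near (I := I) hm1 x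
      have h5 : 0 ≤ K2 * t ^ α := by positivity
      exact add_le_add (mul_le_mul_of_nonneg_right h4 hK1'.le) (mul_le_mul_of_nonneg_right hI h5)
    refine (Finset.sum_le_sum row).trans ?_
    rw [Finset.sum_const, nsmul_eq_mul, ← mul_assoc]
    refine mul_le_mul_of_nonneg_right ?_ hBE
    have h6 : 3 * m * K1 + 5 * k * (K2 * t ^ α) ≤ k * u ^ 2 * (3 * K1 + 5 * K2) := by
      have a1 : m ≤ k * u ^ 2 := mul_le_mul_of_nonneg_left htu hk0.le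
      have a2 : k * (K2 * t ^ α) ≤ k * (K2 * u ^ 2) :=
        mul_le_mul_of_nonneg_left (mul_le_mul_of_nonneg_left htα hK2'.le) hk0.le
      have a3 := mul_le_mul_of_nonneg_right a1 hK1'.le
      linarith
    have h7 : 0 ≤ 3 * m * K1 + 5 * k * (K2 * t ^ α) := by positivity
    calc _ ≤ 5 * (k : ℝ) * (3 * m * K1 + 5 * k * (K2 * t ^ α)) := mul_le_mul_of_nonneg_right hI h7
      _ ≤ 5 * (k : ℝ) * (k * u ^ 2 * (3 * K1 + 5 * K2)) :=
        mul_le_mul_of_nonneg_left h6 (by positivity)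
      _ = _ := by rw [hA]; ring
  have hfin := ex_abs_le (S := fun ω => ∑ x ∈ I, φ x * (N x ω - Ex Q D0 η0 (N x))) (G := G)
    (b := Real.sqrt A * k * u * B) hQ0 (D := D) (η := η) hG0 (by positivity) (by
      refine hsum.trans (le_of_eq ?_)
      have : Real.sqrt A ^ 2 = A := Real.sq_sqrt hA0.le
      calc _ = A * k ^ 2 * u ^ 2 * B ^ 2 * Ex Q D η G := by ring
        _ = Real.sqrt A ^ 2 * k ^ 2 * u ^ 2 * B ^ 2 * Ex Q D η G := by rw [this]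
        _ = _ := by ring)
  exact hfin

end Vale.Agent.P167.N.QM
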