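import Vale.Agent.P167.N.QM.ConsYF
import Vale.Agent.P167.N.H192.Q.Arm3

/-!
# P167, `0 < q < 1`, block Q-MIX1: consequences
-/

set_option autoImplicit false

namespace Vale.Agent.P167.N.QM

open Vale.Agent.P167.QM

open Vale.Agent.P167.FK Vale.Agent.P167.FKA

/-- The three-arm event at a wired flat side. -/
theorem x3d {Q : ℝ} (hQ : Kit Q) : X3D Q := x3d_of hQ.pos (N.H192.Q.yf hQ)

/-- **MIX > 1**, total variation form: all flat sides, all domains. -/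
theorem tv_fin {Q : ℝ} (hQ : Kit Q) (_ : RSW Q) : ∃ c C : ℝ, 0 < c ∧ 0 < C ∧
    ∀ (r : Fin 4) (b : Bool) (z : ℤ × ℤ) (d R : ℤ), 1 ≤ d → d ≤ R →
    ∀ (D : Finset (ℤ × ℤ)) (η : Cfg), Side r b D η z R → Good η →
    ∀ F : Cfg → ℝ, Loc (HS r z d) F → ∀ M : ℝ, (∀ ω, |F ω| ≤ M) →
      (∀ (D' : Finset (ℤ × ℤ)) (η' : Cfg), Side r b D' η' z R → Good η' →
        |Ex Q D η F - Ex Q D' η' F| ≤ C * ((d : ℝ) / R) ^ (1 + c) * M) ∧
      (∀ X : Cfg → ℝ, Ind (HS r z R) X →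
        |Ex Q D η (fun ω => F ω * X ω) - Ex Q D η F * Ex Q D η X| ≤
          C * ((d : ℝ) / R) ^ (1 + c) * M * Ex Q D η (fun ω => |X ω|)) :=
  tv_all hQ (x3d hQ)

/-- **MIX > 1**, relative form: all flat sides, all domains. -/
theorem rel_fin {Q : ℝ} (hQ : Kit Q) (_ : RSW Q) : ∃ (K : ℤ) (c C : ℝ), 1 ≤ K ∧ 0 < c ∧
    0 < C ∧ ∀ (r : Fin 4) (b : Bool) (z : ℤ × ℤ) (d R : ℤ), 1 ≤ d → K * d ≤ R →
    ∀ (D : Finset (ℤ × ℤ)) (η : Cfg), Side r b D η z R → Good η →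
    ∀ F : Cfg → ℝ, Loc (HS r z d) F →
      (∀ (D' : Finset (ℤ × ℤ)) (η' : Cfg), Side r b D' η' z R → Good η' →
        |Ex Q D η F - Ex Q D' η' F| ≤ C * ((d : ℝ) / R) ^ (1 + c) * Ex Q D η (fun ω => |F ω|)) ∧
      (∀ X : Cfg → ℝ, Ind (HS r z R) X →
        |Ex Q D η (fun ω => F ω * X ω) - Ex Q D η F * Ex Q D η X| ≤
          C * ((d : ℝ) / R) ^ (1 + c) * Ex Q D η (fun ω => |F ω|) *
            Ex Q D η (fun ω => |X ω|)) :=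
  rel_all hQ (x3d hQ)

end Vale.Agent.P167.N.QM
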