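import Vale.Agent.P167.N.Kit
import Vale.Agent.P167.H587.Side
import Vale.Agent.P167.QM.Cons

/-!
# P167, `0 < q < 1`, block Q-MIX1: consequences

The same statements as for `q ≥ 1`; the base case is the two-sided comparison at a wired flat side
(`H587.side_two`) with the rate of the three-arm event `X3`.
-/

set_option autoImplicit false

namespace Vale.Agent.P167.N.QM

open Vale.Agent.P167.QM

open Finset Vale.Agent.P167.FK Vale.Agent.P167.FKA Relation

open Vale.Agent.P167.H259 (f_markov cf_cf)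

open Vale.Agent.P167.H519 (cf_in loc_mono)

open Vale.Agent.P167.H587 (X3 side_two)

variable {Q : ℝ}

/-- The bound of the three-arm event at a wired flat side, relative to the state inside. -/
def X3D (Q : ℝ) : Prop := ∃ c C : ℝ, 0 < c ∧ 0 < C ∧ ∀ (z : ℤ × ℤ) (d R : ℤ), 1 ≤ d → d ≤ R →
    ∀ F : Cfg → ℝ, (∀ ω, 0 ≤ F ω) → Loc (HB z d) F →
      Ex Q (HB z R) eta1 (fun ω => F ω * (X3 true z d R).indicator 1 ω) ≤
        C * ((d : ℝ) / R) ^ (1 + c) * Ex Q (HB z R) eta1 F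

/-- The relation of the two expectations. -/
def PP (ε x y : ℝ) : Prop := (1 - ε) * x ≤ y ∧ (1 - ε) * y ≤ x

/-! ### The base case and the transport -/

/-- The base case: a wired side, direction up. -/
theorem ob_wired (hQ : Kit Q) {z : ℤ × ℤ} {d R : ℤ} (hd : 1 ≤ d) (hdR : d ≤ R) {ε : ℝ}
    (h : ∀ F : Cfg → ℝ, (∀ ω, 0 ≤ F ω) → Loc (HB z d) F →
      Ex Q (HB z R) eta1 (fun ω => F ω * (X3 true z d R).indicator 1 ω) ≤
        ε * Ex Q (HB z R) eta1 F) :
    OB Q 0 true z d R (PP ε) := by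
  have hQ0 := hQ.pos
  refine ⟨HB z R, eta1, f_good.2.2, fun D η hS hη F hF h0 => ?_⟩
  rw [HS_zero] at hF
  have hHD : HB z R ⊆ D := by rw [← HS_zero]; exact hS.sub
  have key : ∀ S, PP ε (Ex Q (HB z R) eta1 F) (Ex Q (HB z R) (cf D η S) F) := by
    intro S
    refine side_two hQ0 hQ.le hd hdR (f_good.1 D η S hη) (fun v hv hv2 => ?_) h h0 hF
    exact ((hS.self S).out v hv (by show ¬ z.2 ≤ v.2; omega)).2
  rw [f_markov Q (HB z R) D η F hQ0 hHD hη]
  constructor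
  · rw [← Ex_const (Q := Q) (D := D) (η := η) hQ0 ((1 - ε) * Ex Q (HB z R) eta1 F)]
    exact Ex_mono hQ0 fun S _ => (key S).1
  · rw [← Ex_mul_left, ← Ex_const (Q := Q) (D := D) (η := η) hQ0 (Ex Q (HB z R) eta1 F)]
    exact Ex_mono hQ0 fun S _ => (key S).2

/-- Transport by duality, from wired to free sides. -/
theorem ob_dual' (hQ0 : 0 < Q) {r : Fin 4} {z : ℤ × ℤ} {d R : ℤ} {P : ℝ → ℝ → Prop}
    (h : OB Q r true (shi z) d R P) : OB Q r false z d R P := by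
  obtain ⟨D0, η0, hη0, h⟩ := h
  have hsh : ∀ v R, v ∈ HS r (shi z) R ↔ FKA.sh v ∈ HS r z R := by
    intro v R
    rw [mem_HS, mem_HS, consBq, consBq]
    simp only [FKA.sh, shi]
    have : hp r (z.1 - 1, z.2) v ↔ hp r z (v.1 + 1, v.2) := by
      unfold hp
      fin_cases r <;> simp only <;> omega
    rw [this]
    constructor
    · rintro ⟨h1, h2⟩; exact ⟨by omega, h2⟩
    · rintro ⟨h1, h2⟩; exact ⟨by omega, h2⟩
  have hhp : ∀ v, hp r (shi z) v ↔ hp r z (FKA.sh v) := by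
    intro v
    unfold hp
    simp only [FKA.sh, shi]
    fin_cases r <;> simp only <;> omega
  have hBB : ∀ v R, v ∈ Bq (shi z) R ↔ FKA.sh v ∈ Bq z R := by
    intro v R
    rw [consBq, consBq]
    simp only [FKA.sh, shi]
    omega
  have hms : ∀ (D : Finset (ℤ × ℤ)) v, v ∈ D.image FKA.shi ↔ FKA.sh v ∈ D := by
    intro D v
    rw [Finset.mem_image]
    constructor
    · rintro ⟨w, hw, rfl⟩
      rw [sh_shi]
      exact hw
    · intro hv
      exact ⟨FKA.sh v, hv, shi_sh v⟩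
  have him : ∀ D : Finset (ℤ × ℤ), (D.image FKA.shi).image FKA.sh = D := by
    intro D
    rw [Finset.image_image]
    have : (FKA.sh ∘ shi) = id := by funext v; exact sh_shi v
    rw [this, Finset.image_id]
  refine ⟨D0.image FKA.sh, du η0, f_dual.1 _ hη0, ?_⟩
  intro D η hS hη F hF h0
  have h1 := h (D.image FKA.shi) (dui η) ⟨?_, ?_⟩ (good_dui hη) (fun ω => F (du ω)) ?_ fun ω => h0 _
  · have e1 : Ex Q (D.image FKA.shi) (dui η) (fun ω => F (du ω)) = Ex Q D η F := by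
      have := f_dual.2 Q (D.image FKA.shi) (dui η) F hQ0 (good_dui hη)
      rw [du_dui] at this
      rw [← this]
      congr 1
      exact him D
    have e2 : Ex Q (D0.image FKA.sh) (du η0) F = Ex Q D0 η0 (fun ω => F (du ω)) :=
      f_dual.2 Q D0 η0 F hQ0 hη0
    rw [e1, ← e2] at h1
    exact h1
  · intro v hv
    rw [hms]
    exact hS.sub ((hsh v R).1 hv)
  · intro v hv hv'
    rw [hms]
    obtain ⟨h2, h3⟩ := hS.out (FKA.sh v) ((hBB v R).1 hv) fun h => hv' ((hhp v).2 h)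
    refine ⟨h2, ?_⟩
    show (!η (v.1 + 1, v.2)) = true
    have : η (v.1 + 1, v.2) = false := h3
    rw [this]
    rfl
  · intro ω ω' hw
    refine hF _ _ fun v hv => ?_
    simp only [du]
    congr 1
    refine hw _ ?_
    show shi v ∈ HS r (shi z) d
    rw [hsh, sh_shi]
    exact hv

/-- From wired sides, direction up, to all sides. -/
theorem ob_all' (hQ0 : 0 < Q) {d R : ℤ} {P : ℝ → ℝ → Prop}
    (h : ∀ z : ℤ × ℤ, OB Q 0 true z d R P) :
    ∀ (r : Fin 4) (b : Bool) (z : ℤ × ℤ), OB Q r b z d R P := by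
  have s2 : ∀ z : ℤ × ℤ, OB Q 2 true z d R P := by
    intro z
    have hm : (fun v : ℤ × ℤ => (v.1, -1 - v.2)) ∈ syms := by simp [syms]
    refine ob_sym hQ0 hm (fun v => by ext <;> simp) (z' := (z.1, -z.2)) (r' := 0)
      (fun v R => ?_) (fun v => ?_) (h _)
    · rw [consBq, consBq]; simp only; omega
    · simp only [hp]; omega
  have s3 : ∀ z : ℤ × ℤ, OB Q 3 true z d R P := by
    intro z
    have hm : (fun v : ℤ × ℤ => (v.2, v.1)) ∈ syms := by simp [syms]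
    refine ob_sym hQ0 hm (fun v => rfl) (z' := (z.2, z.1)) (r' := 0)
      (fun v R => ?_) (fun v => ?_) (h _)
    · rw [consBq, consBq]; simp only; omega
    · simp only [hp]
  have s4 : ∀ z : ℤ × ℤ, OB Q 1 true z d R P := by
    intro z
    have hm : (fun v : ℤ × ℤ => (-1 - v.1, v.2)) ∈ syms := by simp [syms]
    refine ob_sym hQ0 hm (fun v => by ext <;> simp) (z' := (-z.1, z.2)) (r' := 3)
      (fun v R => ?_) (fun v => ?_) (s3 _)
    · rw [consBq, consBq]; simp only; omega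
    · simp only [hp]; omega
  have s5 : ∀ (r : Fin 4) (z : ℤ × ℤ), OB Q r true z d R P := by
    intro r
    fin_cases r
    · exact h
    · exact s4
    · exact s2
    · exact s3
  intro r b z
  cases b with
  | true => exact s5 r z
  | false => exact ob_dual' hQ0 (s5 r _)

theorem ob_mono {r : Fin 4} {b : Bool} {z : ℤ × ℤ} {d R : ℤ} {P P' : ℝ → ℝ → Prop}
    (hP : ∀ x y, 0 ≤ x → 0 ≤ y → P x y → P' x y) (hQ0 : 0 < Q) (h : OB Q r b z d R P) :
    OB Q r b z d R P' := by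
  obtain ⟨D0, η0, hη0, h⟩ := h
  exact ⟨D0, η0, hη0, fun D η hS hη F hF h0 => hP _ _ (Ex_nonneg hQ0 fun _ _ => h0 _)
    (Ex_nonneg hQ0 fun _ _ => h0 _) (h D η hS hη F hF h0)⟩

/-! ### The theorems -/

/-- **MIX > 1**, total variation form: all flat sides, all domains. -/
theorem tv_all (hQ : Kit Q) (h : X3D Q) : ∃ c C : ℝ, 0 < c ∧ 0 < C ∧
    ∀ (r : Fin 4) (b : Bool) (z : ℤ × ℤ) (d R : ℤ), 1 ≤ d → d ≤ R →
    ∀ (D : Finset (ℤ × ℤ)) (η : Cfg), Side r b D η z R → Good η →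
    ∀ F : Cfg → ℝ, Loc (HS r z d) F → ∀ M : ℝ, (∀ ω, |F ω| ≤ M) →
      (∀ (D' : Finset (ℤ × ℤ)) (η' : Cfg), Side r b D' η' z R → Good η' →
        |Ex Q D η F - Ex Q D' η' F| ≤ C * ((d : ℝ) / R) ^ (1 + c) * M) ∧
      (∀ X : Cfg → ℝ, Ind (HS r z R) X →
        |Ex Q D η (fun ω => F ω * X ω) - Ex Q D η F * Ex Q D η X| ≤
          C * ((d : ℝ) / R) ^ (1 + c) * M * Ex Q D η (fun ω => |X ω|)) := by
  have hQ0 : 0 < Q := hQ.pos
  obtain ⟨c, C, hc, hC, h⟩ := h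
  refine ⟨c, 2 * C, hc, by positivity, ?_⟩
  intro r b z d R hd hdR D η hS hη F hF M hM
  have ha := ob_mono (P' := fun x y => (1 - C * ((d : ℝ) / R) ^ (1 + c)) * x ≤ y)
    (fun x y _ _ h => h.1) hQ0
    (ob_all' hQ0 (fun z => ob_wired hQ hd hdR (h z d R hd hdR)) r b z)
  have key : ∀ (D' : Finset (ℤ × ℤ)) (η' : Cfg), Side r b D' η' z R → Good η' →
      |Ex Q D η F - Ex Q D' η' F| ≤ 2 * C * ((d : ℝ) / R) ^ (1 + c) * M := by
    intro D' η' hS' hη'
    refine (ob_tv hQ0 ha hS hS' hη hη' hF hM).trans (le_of_eq ?_)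
    ring
  exact ⟨key, fun X hX => cov_of hQ0 hS hη key hX⟩

/-- **MIX > 1**, relative form: all flat sides, all domains. -/
theorem rel_all (hQ : Kit Q) (h : X3D Q) : ∃ (K : ℤ) (c C : ℝ), 1 ≤ K ∧ 0 < c ∧
    0 < C ∧ ∀ (r : Fin 4) (b : Bool) (z : ℤ × ℤ) (d R : ℤ), 1 ≤ d → K * d ≤ R →
    ∀ (D : Finset (ℤ × ℤ)) (η : Cfg), Side r b D η z R → Good η →
    ∀ F : Cfg → ℝ, Loc (HS r z d) F →
      (∀ (D' : Finset (ℤ × ℤ)) (η' : Cfg), Side r b D' η' z R → Good η' →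
        |Ex Q D η F - Ex Q D' η' F| ≤ C * ((d : ℝ) / R) ^ (1 + c) * Ex Q D η (fun ω => |F ω|)) ∧
      (∀ X : Cfg → ℝ, Ind (HS r z R) X →
        |Ex Q D η (fun ω => F ω * X ω) - Ex Q D η F * Ex Q D η X| ≤
          C * ((d : ℝ) / R) ^ (1 + c) * Ex Q D η (fun ω => |F ω|) *
            Ex Q D η (fun ω => |X ω|)) := by
  have hQ0 : 0 < Q := hQ.pos
  obtain ⟨c, C, hc0, hC0, h⟩ := h
  obtain ⟨K, hK1, hK⟩ : ∃ K : ℤ, 1 ≤ K ∧ 4 * C ≤ K := by
    refine ⟨max 1 ⌈4 * C⌉, le_max_left _ _, ?_⟩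
    have := Int.le_ceil (4 * C)
    have h3 : (⌈4 * C⌉ : ℝ) ≤ ((max 1 ⌈4 * C⌉ : ℤ) : ℝ) := by exact_mod_cast le_max_right _ _
    linarith
  have hK1' : (1 : ℝ) ≤ K := by exact_mod_cast hK1
  have small : ∀ {d R : ℤ}, 1 ≤ d → K * d ≤ R → C * ((d : ℝ) / R) ^ (1 + c) ≤ 1 / 4 := by
    intro d R hd hdR
    have hd' : (1 : ℝ) ≤ d := by exact_mod_cast hd
    have hR' : (K : ℝ) * d ≤ R := by exact_mod_cast hdR
    have hR0 : (0 : ℝ) < R := by nlinarith
    have hx : 0 < (d : ℝ) / R := div_pos (by linarith) hR0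
    have hx1 : (d : ℝ) / R ≤ 1 / K := by
      rw [div_le_div_iff₀ hR0 (by linarith)]
      linarith
    have hx2 : (d : ℝ) / R ≤ 1 := hx1.trans (by
      rw [div_le_one (by linarith)]
      exact hK1')
    have h3 : ((d : ℝ) / R) ^ (1 + c) ≤ (d : ℝ) / R := by
      calc _ ≤ ((d : ℝ) / R) ^ (1 : ℝ) := Real.rpow_le_rpow_of_exponent_ge hx hx2 (by linarith)
        _ = _ := Real.rpow_one _
    calc _ ≤ C * (1 / K) := mul_le_mul_of_nonneg_left (h3.trans hx1) hC0.le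
      _ = C / K := by ring
      _ ≤ 1 / 4 := by
        rw [div_le_div_iff₀ (by linarith) (by norm_num)]
        linarith
  refine ⟨K, c, 8 * C, hK1, hc0, by positivity, ?_⟩
  intro r b z d R hd hKd D η hS hη F hF
  have hdR : d ≤ R := by nlinarith
  have hd' : (1 : ℝ) ≤ d := by exact_mod_cast hd
  have hR' : (d : ℝ) ≤ R := by exact_mod_cast hdR
  set ε := C * ((d : ℝ) / R) ^ (1 + c) with hε
  have hε0 : 0 ≤ ε :=
    mul_nonneg hC0.le (Real.rpow_nonneg (div_nonneg (by linarith) (by linarith)) _)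
  have hε1 : ε ≤ 1 / 4 := small hd hKd
  have ha := ob_mono (P' := fun x y => (1 - 2 * ε) * x ≤ y ∧ y ≤ (1 + 2 * ε) * x)
    (fun x y hx hy h => ⟨by nlinarith [h.1], by
      obtain ⟨h1, h2⟩ := h
      have h3 : 1 ≤ (1 + 2 * ε) * (1 - ε) := by nlinarith
      have h4 := mul_le_mul_of_nonneg_left h2 (by linarith : (0 : ℝ) ≤ 1 + 2 * ε)
      nlinarith⟩) hQ0
    (ob_all' hQ0 (fun z => ob_wired hQ hd hdR (h z d R hd hdR)) r b z)
  have key : ∀ (D' : Finset (ℤ × ℤ)) (η' : Cfg), Side r b D' η' z R → Good η' →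
      |Ex Q D η F - Ex Q D' η' F| ≤
        8 * C * ((d : ℝ) / R) ^ (1 + c) * Ex Q D η (fun ω => |F ω|) := by
    intro D' η' hS' hη'
    refine (ob_rel hQ0 (by linarith) (by linarith) ha hS hS' hη hη' hF).trans (le_of_eq ?_)
    rw [hε]
    ring
  exact ⟨key, fun X hX => cov_of hQ0 hS hη key hX⟩

end Vale.Agent.P167.N.QM
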