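import Vale.Agent.P167.N.QM.Cons
import Vale.Agent.P167.H587.X3Bd

/-!
# P167, `0 < q < 1`, block Q-MIX1: the rate of the three-arm event from the arm exponents
-/

set_option autoImplicit false

namespace Vale.Agent.P167.N.QM

open Vale.Agent.P167.QM

open Finset Vale.Agent.P167.FK Vale.Agent.P167.FKA

open Vale.Agent.P167.H587 (YF x3_delta)

variable {Q : ℝ}

theorem x3d_of (hQ0 : 0 < Q) (hY : YF Q) : X3D Q := by
  obtain ⟨C, α, hC, hα, h⟩ := x3_delta hQ0 hY
  refine ⟨α, C, hα, hC, fun z d R hd hdR F hF0 hF => ?_⟩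
  refine h true true z d R (HB z R) eta1 hd hdR f_good.2.2 (fun v hv => ⟨?_, fun _ => rfl⟩) F hF0 hF
  rw [consHB]
  exact and_iff_right hv

end Vale.Agent.P167.N.QM
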